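import Vale.Agent.P181.O2.H352.Mv
import Vale.Agent.P181.O2.H244.Lift

set_option autoImplicit false

/-!
# P181, O2, A4, bridge: `BQ z Q + CQ z v G = 0` in the free columns
-/

open MvPolynomial

namespace Vale.Agent.P181.O2.H352

open Vale.Agent.P181.SZR3 (colD colD_X colD_eq exists_coeff_colD sum_single_col)
open Vale.Agent.P181.DG6.H887 (lsub lsub_X eval_lsub lsub_deg)
open Vale.Agent.P181.TW.H312 (opL opL_nil opL_cons opL_perm opL_zero opL_append colD_comm)
open Vale.Agent.P181.TW.T5 (lsub_lsub cen sum_cen sum_cen' sum_cen_mul EE EE_castSucc EE_last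
  sum_EE eval_tr eval_congr)
open Vale.Agent.P181.O2.H726 (bq bq_lsub BQ CQ LB opL_add opL_neg)

variable {m : ℕ} {α : Type} [Fintype α] [DecidableEq α]

/-- The free columns. -/
noncomputable def ph (m : ℕ) (α : Type) [Fintype α] [DecidableEq α] (M : ℕ) :
    MvPolynomial (Fin m × (α ⊕ Fin (M + 1))) ℂ →ₐ[ℂ] MvPolynomial (Fin m × (α ⊕ Fin M)) ℂ :=
  lsub m (exS (EE M))

variable {M : ℕ}

lemma ph_colD (j : Fin (M + 1)) (z : α) (f : MvPolynomial (Fin m × (α ⊕ Fin (M + 1))) ℂ) :
    ph m α M (colD (Sum.inr j) (Sum.inl z) f) =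
      ∑ c : Fin M, EE M j c • colD (Sum.inr c) (Sum.inl z) (ph m α M f) := by
  rw [ph, TW5.lsub_colD (exS (EE M)) (Sum.inr j) (Sum.inl z) (Sum.inl z), Fintype.sum_sum_type,
    Finset.sum_eq_zero, zero_add]
  · rfl
  · intro a _
    change (0 : ℂ) • _ = _
    rw [zero_smul]
  · intro c
    cases c with
    | inl c =>
      change (if z = c then (1 : ℂ) else 0) = _
      by_cases h : z = c
      · simp [h]
      · rw [if_neg h, if_neg]
        intro h'
        exact h (Sum.inl_injective h').symm
    | inr c =>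
      rw [if_neg (by simp)]
      rfl
  · intro o ho
    cases o with
    | inl a =>
      change (if a = z then (1 : ℂ) else 0) = 0
      exact if_neg fun h => ho (by rw [h])
    | inr a => rfl
  · simp

lemma ph_castSucc (j : Fin M) (z : α) (f : MvPolynomial (Fin m × (α ⊕ Fin (M + 1))) ℂ) :
    ph m α M (colD (Sum.inr j.castSucc) (Sum.inl z) f) =
      colD (Sum.inr j) (Sum.inl z) (ph m α M f) := by
  rw [ph_colD, Finset.sum_eq_single j]
  · rw [EE_castSucc]
    beta_reduce
    rw [if_pos rfl, one_smul]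
  · intro c _ hc
    rw [EE_castSucc]
    beta_reduce
    rw [if_neg (Ne.symm hc), zero_smul]
  · intro h
    exact absurd (Finset.mem_univ _) h

/-- `∑ j, q_j · ∂_z` in the free columns. -/
noncomputable def SZ (z : α) (f : MvPolynomial (Fin m × (α ⊕ Fin M)) ℂ) :
    MvPolynomial (Fin m × (α ⊕ Fin M)) ℂ := ∑ c : Fin M, colD (Sum.inr c) (Sum.inl z) f

lemma ph_last (z : α) (f : MvPolynomial (Fin m × (α ⊕ Fin (M + 1))) ℂ) :
    ph m α M (colD (Sum.inr (Fin.last M)) (Sum.inl z) f) = - SZ z (ph m α M f) := by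
  rw [ph_colD, SZ, ← Finset.sum_neg_distrib]
  refine Finset.sum_congr rfl fun c _ => ?_
  rw [EE_last, neg_one_smul]

lemma ph_opL (z : α) (l : List (Fin M)) (f : MvPolynomial (Fin m × (α ⊕ Fin (M + 1))) ℂ) :
    ph m α M (opL (Sum.inl z) ((l.map Fin.castSucc).map Sum.inr) f) =
      opL (Sum.inl z) (l.map Sum.inr) (ph m α M f) := by
  induction l generalizing f with
  | nil => rfl
  | cons j l ih =>
    rw [List.map_cons, List.map_cons, opL_cons, ih, ph_castSucc, List.map_cons, opL_cons]

/-- `Q` in the free columns. -/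
lemma ph_BQ (z : α) (Q : MvPolynomial (Fin m × (α ⊕ Fin (M + 1))) ℂ) :
    ph m α M (opL (Sum.inl z) ((List.finRange (M + 1)).map Sum.inr) Q) =
      - opL (Sum.inl z) ((List.finRange M).map Sum.inr) (SZ z (ph m α M Q)) := by
  have hp : ((List.finRange (M + 1)).map (Sum.inr : Fin (M + 1) → α ⊕ Fin (M + 1))).Perm
      (Sum.inr (Fin.last M) :: ((List.finRange M).map Fin.castSucc).map Sum.inr) := by
    rw [List.finRange_succ_last, List.map_append]
    exact List.perm_append_comm
  rw [opL_perm hp (by simp), opL_cons, ph_opL, ph_last, opL_neg]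

/-- `G` in the free columns. -/
lemma ph_CQ (z : α) (T : Fin (M + 1) → MvPolynomial (Fin m × (α ⊕ Fin (M + 1))) ℂ) :
    ph m α M (∑ j, opL (Sum.inl z) (((List.finRange (M + 1)).erase j).map Sum.inr) (T j)) =
      opL (Sum.inl z) ((List.finRange M).map Sum.inr) (ph m α M (T (Fin.last M))) -
        ∑ j : Fin M, opL (Sum.inl z) (((List.finRange M).erase j).map Sum.inr)
          (SZ z (ph m α M (T j.castSucc))) := by
  rw [map_sum, Fin.sum_univ_castSucc, add_comm, sub_eq_add_neg, ← Finset.sum_neg_distrib]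
  congr 1
  · have hp : (((List.finRange (M + 1)).erase (Fin.last M)).map
        (Sum.inr : Fin (M + 1) → α ⊕ Fin (M + 1))).Perm
        (((List.finRange M).map Fin.castSucc).map Sum.inr) := by
      refine List.Perm.map _ ?_
      have h1 : (List.finRange (M + 1)).Perm
          (Fin.last M :: (List.finRange M).map Fin.castSucc) := by
        rw [List.finRange_succ_last]
        exact List.perm_append_comm
      have h2 := h1.erase (Fin.last M)
      rwa [List.erase_cons_head] at h2
    rw [opL_perm hp (by simp), ph_opL]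
  · refine Finset.sum_congr rfl fun j _ => ?_
    have hp : (((List.finRange (M + 1)).erase j.castSucc).map
        (Sum.inr : Fin (M + 1) → α ⊕ Fin (M + 1))).Perm
        (Sum.inr (Fin.last M) :: ((((List.finRange M).erase j).map Fin.castSucc).map
          Sum.inr)) := by
      have h1 : (List.finRange (M + 1)).Perm
          (Fin.last M :: (List.finRange M).map Fin.castSucc) := by
        rw [List.finRange_succ_last]
        exact List.perm_append_comm
      have h2 := h1.erase j.castSucc
      rw [List.erase_cons_tail (by simp [(Fin.castSucc_lt_last j).ne']),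
        ← List.map_erase (Fin.castSucc_injective M)] at h2
      exact h2.map _
    rw [opL_perm hp (by simp), opL_cons, ph_opL, ph_last, opL_neg]

/-- A polynomial without marked columns. -/
lemma eq_zero_of_bq {n : ℕ} {H : MvPolynomial (Fin m × (α ⊕ Fin n)) ℂ}
    (hH : ∀ v, coeff v H ≠ 0 → ∀ a, ∑ i, v (i, Sum.inl a) = 0)
    (h : lsub m (bq fun j c : Fin n => if j = c then 1 else 0) H = 0) : H = 0 := by
  have h1 : lsub m (fun (c : Fin n) (o : α ⊕ Fin n) => if o = Sum.inr c then (1 : ℂ) else 0)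
      (lsub m (bq fun j c : Fin n => if j = c then 1 else 0) H) = H := by
    rw [lsub_lsub]
    conv_rhs => rw [← TW5.lsub_one H]
    apply TW5.lsub_congr
    intro o
    cases o with
    | inl a =>
      right
      intro v hv
      exact hH v hv a
    | inr j =>
      left
      funext o
      change ∑ k, (if j = k then (1 : ℂ) else 0) * (if o = Sum.inr k then 1 else 0) = _
      rw [Finset.sum_eq_single j]
      · rw [if_pos rfl, one_mul]
        simp only [eq_comm]
      · intro k _ hk
        rw [if_neg (Ne.symm hk), zero_mul]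
      · intro h'
        exact absurd (Finset.mem_univ _) h'
  rw [← h1, h, map_zero]

/-- **The identity in the free columns.** -/
lemma ph_zero (F : MvPolynomial (Fin m × (α ⊕ Fin (M + 1))) ℂ)
    (hF : ∀ v, coeff v F ≠ 0 → ∀ a, ∑ i, v (i, Sum.inl a) = 0)
    (h : lsub m (bq (cen (M + 1))) F = 0) : ph m α M F = 0 := by
  apply eq_zero_of_bq
  · intro v hv a
    obtain ⟨w, hw, h1⟩ := exists_Mv _ F v hv
    rw [Mv_inl h1, hF w hw]
  · have h1 := congrArg (lsub m (EE M)) h
    rw [map_zero, bq_lsub] at h1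
    rw [← h1, ph, lsub_lsub]
    congr 3
    funext o c
    rw [Fintype.sum_sum_type]
    cases o with
    | inl a => simp [bq, exS]
    | inr j =>
      have h2 : ∑ k, cen (M + 1) j k * EE M k c = EE M j c := by
        rw [sum_cen_mul j fun k => EE M k c, sum_EE, mul_zero, sub_zero]
      simp [bq, exS, h2]

/-- Back to the points. -/
lemma ph_inj (G : MvPolynomial (Fin m × (α ⊕ Fin (M + 1))) ℂ)
    (h : ∀ i, ∑ j : Fin (M + 1), pderiv (i, (Sum.inr j : α ⊕ Fin (M + 1))) G = 0)
    (h0 : ph m α M G = 0) : G = 0 := by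
  have h1 : lsub m (exS fun (j : Fin M) (c : Fin (M + 1)) => cen (M + 1) j.castSucc c)
      (ph m α M G) = G := by
    rw [ph, lsub_lsub]
    apply MvPolynomial.funext
    intro x
    rw [eval_lsub, ← eval_tr (fun o : α ⊕ Fin (M + 1) => Sum.elim (fun _ => 0) (fun _ => 1) o) G
      (fun i => by
        rw [Fintype.sum_sum_type]
        simpa using h i) x (fun i => - (((M + 1 : ℕ) : ℂ)⁻¹ * ∑ c, x (i, Sum.inr c)))]
    refine eval_congr _ fun p => ?_
    obtain ⟨i, o⟩ := p
    cases o with
    | inl a =>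
      simp only [Fintype.sum_sum_type, Sum.elim_inl, zero_mul, add_zero]
      simp [exS]
    | inr j =>
      have h2 : ∀ c, ∑ k : Fin M, EE M j k * cen (M + 1) k.castSucc c = cen (M + 1) j c := by
        intro c
        induction j using Fin.lastCases with
        | last =>
          rw [EE_last]
          have h6 := sum_cen' (n := M + 1) (by omega) c
          rw [Fin.sum_univ_castSucc] at h6
          simp only [neg_mul, one_mul, Finset.sum_neg_distrib]
          linear_combination -h6
        | cast j =>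
          rw [EE_castSucc]
          simp
      have h3 := sum_cen_mul j fun c => x (i, Sum.inr c)
      simp only [Fintype.sum_sum_type, Sum.elim_inr, one_mul]
      simp only [exS, Sum.elim_inr, Sum.elim_inl, zero_mul, Finset.sum_const_zero, zero_add,
        mul_zero]
      simp only [h2, h3]
      ring
  rw [← h1, h0, map_zero]

/-! ### Polarization is substitution -/

/-- The matrix of `sv`. -/
def svA {α : Type} [DecidableEq α] {n : ℕ} (v : α) (j : Fin n) (o o' : α ⊕ Fin n) : ℂ :=
  if (if o = Sum.inl v then Sum.inr j else o) = o' then 1 else 0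

lemma sv_eq {n : ℕ} (v : α) (j : Fin n) (f : MvPolynomial (Fin m × (α ⊕ Fin n)) ℂ) :
    H726.sv v j f = lsub m (svA v j) f := by
  have h : (H726.sv v j : MvPolynomial (Fin m × (α ⊕ Fin n)) ℂ →ₐ[ℂ] _) = lsub m (svA v j) := by
    apply MvPolynomial.algHom_ext
    rintro ⟨i, o⟩
    rw [H726.sv, rename_X, lsub_X, Finset.sum_eq_single (if o = Sum.inl v then Sum.inr j else o)]
    · simp [svA]
    · intro c _ hc
      have h1 : svA v j o c = 0 := if_neg (Ne.symm hc)
      rw [show svA v j ((i, o) : Fin m × (α ⊕ Fin n)).2 c = 0 from h1, C_0, zero_mul]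
    · intro h'
      exact absurd (Finset.mem_univ _) h'
  rw [h]

/-- A polynomial without the column `v`. -/
lemma colD_free {σ : Type} [Fintype σ] [DecidableEq σ] {a c : σ} (f : MvPolynomial (Fin m × σ) ℂ)
    (hf : ∀ v, coeff v f ≠ 0 → ∑ i, v (i, c) = 0) : colD a c f = 0 := by
  apply MvPolynomial.ext
  intro v
  rw [coeff_zero]
  by_contra hv
  obtain ⟨i, u, rfl, hu⟩ := exists_coeff_colD a c f v hv
  have h1 := hf _ hu
  simp only [Finsupp.add_apply, Finset.sum_add_distrib, sum_single_col] at h1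
  simp at h1

lemma sv_free {n : ℕ} {v : α} {j : Fin n} (f : MvPolynomial (Fin m × (α ⊕ Fin n)) ℂ)
    (hf : ∀ u, coeff u f ≠ 0 → ∑ i, u (i, Sum.inl v) = 0) : H726.sv v j f = f := by
  rw [sv_eq]
  conv_rhs => rw [← TW5.lsub_one f]
  apply TW5.lsub_congr
  intro o
  by_cases h : o = Sum.inl v
  · right
    intro u hu
    rw [h]
    exact hf u hu
  · left
    funext o'
    rw [svA, if_neg h]

omit [Fintype α] in
lemma monomial_split (w : Fin m × (α ⊕ Fin M) →₀ ℕ) (a : ℂ) (v : α) (n : ℕ)
    (h : ∑ i, w (i, Sum.inl v) = n + 1) : ∃ (i : Fin m) (r : Fin m × (α ⊕ Fin M) →₀ ℕ),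
      ∑ i, r (i, Sum.inl v) = n ∧ monomial w a = X (i, Sum.inl v) * monomial r a := by
  obtain ⟨i, -, hi⟩ : ∃ i ∈ Finset.univ, w (i, Sum.inl v) ≠ 0 := by
    by_contra hc
    push Not at hc
    rw [Finset.sum_eq_zero hc] at h
    omega
  have hle : Finsupp.single (i, Sum.inl v) 1 ≤ w := by
    rw [Finsupp.single_le_iff]
    omega
  refine ⟨i, w - Finsupp.single (i, Sum.inl v) 1, ?_, ?_⟩
  · have h1 : w - Finsupp.single (i, Sum.inl v) 1 + Finsupp.single (i, Sum.inl v) 1 = w :=
      tsub_add_cancel_of_le hle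
    rw [← h1] at h
    simp only [Finsupp.add_apply, Finset.sum_add_distrib, sum_single_col, if_true] at h
    omega
  · rw [X, monomial_mul, one_mul, add_comm, tsub_add_cancel_of_le hle]

/-- **Polarization.** -/
lemma pol2 (v : α) (j : Fin M) (G : MvPolynomial (Fin m × (α ⊕ Fin M)) ℂ)
    (hG : ∀ u, coeff u G ≠ 0 → ∑ i, u (i, Sum.inl v) = 2) :
    colD (Sum.inr j) (Sum.inl v) (colD (Sum.inr j) (Sum.inl v) G) = 2 * H726.sv v j G := by
  have hX : ∀ i, colD (Sum.inr j) (Sum.inl v) (X (i, Sum.inl v) :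
      MvPolynomial (Fin m × (α ⊕ Fin M)) ℂ) = X (i, Sum.inr j) := fun i => by
    rw [colD_X, if_pos rfl]
  have hY : ∀ i, colD (Sum.inr j) (Sum.inl v) (X (i, Sum.inr j) :
      MvPolynomial (Fin m × (α ⊕ Fin M)) ℂ) = 0 := fun i => by
    rw [colD_X, if_neg (by simp)]
  have hS : ∀ i, H726.sv v j (X (i, Sum.inl v) : MvPolynomial (Fin m × (α ⊕ Fin M)) ℂ) =
      X (i, Sum.inr j) := fun i => by
    rw [H726.sv, rename_X]
    simp
  have hmono : ∀ r : Fin m × (α ⊕ Fin M) →₀ ℕ, ∀ a : ℂ, ∑ i, r (i, Sum.inl v) = 0 →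
      ∀ u, coeff u (monomial r a) ≠ 0 → ∑ i, u (i, Sum.inl v) = 0 := by
    intro r a hr u hu
    rw [coeff_monomial] at hu
    split_ifs at hu with h
    · rw [← h]
      exact hr
    · exact absurd rfl hu
  have key : ∀ w : Fin m × (α ⊕ Fin M) →₀ ℕ, ∀ a : ℂ, ∑ i, w (i, Sum.inl v) = 2 →
      colD (Sum.inr j) (Sum.inl v) (colD (Sum.inr j) (Sum.inl v) (monomial w a)) =
        2 * H726.sv v j (monomial w a) := by
    intro w a hw
    obtain ⟨i, r, hr, h1⟩ := monomial_split w a v 1 hw
    obtain ⟨k, s, hs, h2⟩ := monomial_split r a v 0 hr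
    have h3 : colD (Sum.inr j) (Sum.inl v) (monomial s a) = 0 := colD_free _ (hmono s a hs)
    have h4 : H726.sv v j (monomial s a) = monomial s a := sv_free _ (hmono s a hs)
    rw [h1, h2]
    simp only [Derivation.leibniz, map_add, smul_eq_mul, hX, hY, h3, map_mul, hS, h4, map_zero]
    ring
  rw [G.as_sum]
  simp only [map_sum]
  rw [Finset.mul_sum]
  exact Finset.sum_congr rfl fun w hw => key w _ (hG w (mem_support_iff.1 hw))

end Vale.Agent.P181.O2.H352
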