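import Vale.Agent.P181.O2.H352.Defs

set_option autoImplicit false

/-!
# P181, O2, A4: tools (components in one column, the operators `∂_z ∧ ∂_u`, injectivity)
-/

open MvPolynomial

namespace Vale.Agent.P181.O2.H352

open Vale.Agent.P181.SZR3 (colD ColH colD_X colD_eq exists_coeff_colD sum_single_col itD_zero
  itD_succ pderiv_X')
open Vale.Agent.P181.DG6.H887 (lsub lsub_X eval_lsub)
open Vale.Agent.P181.TW.H312 (opL opL_nil opL_cons opL_perm opL_zero colD_comm)
open Vale.Agent.P181.DG4a (mv colH_mv itD_inj)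
open Vale.Agent.P181.DG.H514 (cmp coeff_cmp_pos colH_cmp cmp_colD cmp_colD_zero cmp_eq_zero)

variable {m : ℕ} {σ : Type} [Fintype σ] [DecidableEq σ]

/-! ### Injectivity -/

/-- `q_j · ∂_z` is injective when the degree in `q_j` is less than the degree in `z`. -/
lemma colD_inj {j z : σ} (hj : j ≠ z) (f : MvPolynomial (Fin m × σ) ℂ)
    (hf : ∀ u, coeff u f ≠ 0 → ∑ i, u (i, j) + 1 ≤ ∑ i, u (i, z)) (h : colD j z f = 0) :
    f = 0 := by
  by_contra hne
  obtain ⟨u0, hu0⟩ := Finset.nonempty_iff_ne_empty.2 (fun h' => hne (support_eq_empty.1 h'))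
  set d : σ → ℕ := fun j => ∑ i, u0 (i, j) with hd
  have hgd : cmp d f ≠ 0 := by
    intro h
    have h1 : coeff u0 (cmp d f) = coeff u0 f := coeff_cmp_pos f fun b => rfl
    rw [h, coeff_zero] at h1
    exact mem_support_iff.1 hu0 h1.symm
  have hdd : d j + 1 ≤ d z := hf u0 (mem_support_iff.1 hu0)
  apply hgd
  refine itD_inj hj (d j) 1 d _ (colH_cmp d f) rfl (by omega) ?_
  rw [itD_succ, itD_zero, ← cmp_colD (δ' := mv d j z) (δ := d) (fun i => ?_), h, map_zero]
  simp only [mv]
  by_cases h1 : i = j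
  · subst h1
    simp [Ne.symm hj]
  · by_cases h2 : i = z
    · subst h2
      simp [hj, Ne.symm hj]
      omega
    · simp [h1, h2, Ne.symm h1, Ne.symm h2]

/-- `q̄ · ∂_z` is injective when the degree in one `q_j` is less than the degree in `z`. -/
lemma QB_inj {z : σ} {l : List σ} (hz : z ∉ l) {j0 : σ} (hj0 : j0 ∈ l)
    (g : MvPolynomial (Fin m × σ) ℂ)
    (hg : ∀ u, coeff u g ≠ 0 → ∑ i, u (i, j0) + 1 ≤ ∑ i, u (i, z)) (h : QB z l g = 0) :
    g = 0 := by
  by_contra hne
  have hjv : j0 ≠ z := fun h => hz (h ▸ hj0)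
  obtain ⟨u0, hu0, hmax⟩ := Finset.exists_max_image g.support (fun u => ∑ i, u (i, j0))
    (Finset.nonempty_iff_ne_empty.2 (fun h' => hne (support_eq_empty.1 h')))
  set d : σ → ℕ := fun j => ∑ i, u0 (i, j) with hd
  have hgd : cmp d g ≠ 0 := by
    intro h
    have h1 : coeff u0 (cmp d g) = coeff u0 g := coeff_cmp_pos g fun b => rfl
    rw [h, coeff_zero] at h1
    exact mem_support_iff.1 hu0 h1.symm
  have hdv : d j0 + 1 ≤ d z := hg u0 (mem_support_iff.1 hu0)
  have h1 : cmp (mv d j0 z) (∑ j ∈ l.toFinset, colD j z g) = colD j0 z (cmp d g) := by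
    rw [map_sum, Finset.sum_eq_single j0]
    · apply cmp_colD
      intro i
      simp only [mv]
      by_cases h1 : i = j0
      · subst h1
        simp [Ne.symm hjv]
      · by_cases h2 : i = z
        · subst h2
          simp [hjv, Ne.symm hjv]
          omega
        · simp [h1, h2, Ne.symm h1, Ne.symm h2]
    · intro j hj hjj
      have hjv' : j ≠ z := fun h => hz (h ▸ List.mem_toFinset.1 hj)
      by_cases hzz : mv d j0 z j = 0
      · exact cmp_colD_zero hzz g
      · have h2 : cmp (fun b => if b = j then mv d j0 z j - 1 else if b = z then mv d j0 z z + 1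
            else mv d j0 z b) g = 0 := by
          apply cmp_eq_zero
          intro u hu hu'
          have h3 := hu' j0
          rw [if_neg (Ne.symm hjj), if_neg hjv, mv, if_pos rfl] at h3
          have h4 := hmax u (mem_support_iff.2 hu)
          simp only [hd] at h3
          omega
        rw [cmp_colD (δ := fun b => if b = j then mv d j0 z j - 1 else if b = z then
          mv d j0 z z + 1 else mv d j0 z b), h2, map_zero]
        intro i
        by_cases h1 : i = j
        · subst h1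
          simp [Ne.symm hjv']
          omega
        · by_cases h2 : i = z
          · subst h2
            simp [hjv', Ne.symm hjv']
          · simp [h1, h2, Ne.symm h1, Ne.symm h2]
    · intro h
      exact absurd (List.mem_toFinset.2 hj0) h
  rw [QB] at h
  rw [h, map_zero] at h1
  apply hgd
  refine itD_inj hjv (d j0) 1 d _ (colH_cmp d g) rfl (by omega) ?_
  rw [itD_succ, itD_zero, ← h1]

omit [Fintype σ] in
lemma opL_snoc (z : σ) (l : List σ) (j : σ) (f : MvPolynomial (Fin m × σ) ℂ) :
    opL z (l ++ [j]) f = colD j z (opL z l f) := by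
  induction l generalizing f with
  | nil => rfl
  | cons i l ih => rw [List.cons_append, opL_cons, opL_cons, ih]

/-- The degrees of `opL z l f`. -/
lemma deg_opL {z : σ} : ∀ (l : List σ), z ∉ l → l.Nodup → ∀ (f : MvPolynomial (Fin m × σ) ℂ)
    (u : Fin m × σ →₀ ℕ), coeff u (opL z l f) ≠ 0 → ∃ w, coeff w f ≠ 0 ∧
      ∑ i, w (i, z) = ∑ i, u (i, z) + l.length ∧
      ∀ c, c ≠ z → ∑ i, u (i, c) = ∑ i, w (i, c) + if c ∈ l then 1 else 0 := by
  intro l
  induction l with
  | nil =>
    intro _ _ f u hu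
    exact ⟨u, hu, by simp, fun c _ => by simp⟩
  | cons j l ih =>
    intro hz hnd f u hu
    have hjz : j ≠ z := fun h => hz (by simp [h])
    obtain ⟨w, hw, h1, h2⟩ := ih (fun h => hz (List.mem_cons_of_mem _ h))
      (List.nodup_cons.1 hnd).2 (colD j z f) u hu
    obtain ⟨i, w', rfl, hw'⟩ := exists_coeff_colD _ _ f w hw
    refine ⟨_, hw', ?_, fun c hc => ?_⟩
    · simp only [Finsupp.add_apply, Finset.sum_add_distrib, sum_single_col] at h1 ⊢
      simp [hjz] at h1 ⊢
      omega
    · have h3 := h2 c hc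
      simp only [Finsupp.add_apply, Finset.sum_add_distrib, sum_single_col] at h3 ⊢
      rw [h3]
      have hnj := (List.nodup_cons.1 hnd).1
      by_cases hcj : c = j
      · subst hcj
        simp [hnj, Ne.symm hc]
      · simp [hcj, Ne.symm hc, Ne.symm hcj]

/-- `∏_{j ∈ l} (q_j · ∂_z)` is injective. -/
lemma opL_inj {z : σ} (D : ℕ) : ∀ (n : ℕ) (l : List σ), l.length = n → z ∉ l → l.Nodup →
    ∀ (f : MvPolynomial (Fin m × σ) ℂ),
      (∀ u, coeff u f ≠ 0 → l.length + D ≤ ∑ i, u (i, z) ∧ ∀ c ∈ l, ∑ i, u (i, c) ≤ D) →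
      opL z l f = 0 → f = 0 := by
  intro n
  induction n with
  | zero =>
    intro l hl _ _ f _ h0
    rw [List.length_eq_zero_iff] at hl
    subst hl
    exact h0
  | succ n ih =>
    intro l hl hz hnd f hf h0
    have hne : l ≠ [] := by
      intro h'
      rw [h'] at hl
      simp at hl
    obtain ⟨l', j, rfl⟩ : ∃ l' j, l = l' ++ [j] := by
      rcases List.eq_nil_or_concat l with h | ⟨l', j, h⟩
      · exact absurd h hne
      · exact ⟨l', j, by rw [h, List.concat_eq_append]⟩
    have hjz : j ≠ z := fun h => hz (by simp [h])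
    have hlen : l'.length = n := by simpa using hl
    have hnd' : l'.Nodup := (List.nodup_append.1 hnd).1
    have hz' : z ∉ l' := fun h => hz (List.mem_append_left _ h)
    have hj' : j ∉ l' := by
      intro h
      have := (List.nodup_append.1 hnd).2.2 j h j (by simp)
      exact this rfl
    rw [opL_snoc] at h0
    refine ih l' hlen hz' hnd' f (fun u hu => ⟨?_, fun c hc => (hf u hu).2 c
      (List.mem_append_left _ hc)⟩) ?_
    · have := (hf u hu).1
      rw [List.length_append] at this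
      omega
    · refine colD_inj hjz _ (fun u hu => ?_) h0
      obtain ⟨w, hw, h1, h2⟩ := deg_opL l' hz' hnd' f u hu
      have h3 := h2 j hjz
      rw [if_neg hj'] at h3
      have h4 := (hf w hw).1
      have h5 := (hf w hw).2 j (by simp)
      rw [List.length_append, List.length_singleton] at h4
      omega

/-- The injectivity used twice. -/
lemma inj_all {z : σ} {l : List σ} (hz : z ∉ l) (hnd : l.Nodup) (hl : 1 ≤ l.length) (D x : ℕ)
    (f : MvPolynomial (Fin m × σ) ℂ) (hx : l.length + D + 2 ≤ x)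
    (hf : ∀ u, coeff u f ≠ 0 → ∑ i, u (i, z) = x ∧ ∀ c ∈ l, ∑ i, u (i, c) ≤ D)
    (h0 : QB z l (opL z l f) = 0) : f = 0 := by
  obtain ⟨j0, hj0⟩ := List.exists_mem_of_length_pos hl
  have hjz : j0 ≠ z := fun h => hz (h ▸ hj0)
  refine opL_inj D _ l rfl hz hnd f (fun u hu => ⟨?_, (hf u hu).2⟩) ?_
  · rw [(hf u hu).1]
    omega
  · refine QB_inj hz hj0 _ (fun u hu => ?_) h0
    obtain ⟨w, hw, h1, h2⟩ := deg_opL l hz hnd f u hu
    have h3 := h2 j0 hjz
    rw [if_pos hj0] at h3
    have h4 := (hf w hw).1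
    have h5 := (hf w hw).2 j0 hj0
    omega

/-! ### The operators `∂_z ∧ ∂_u` -/

omit [Fintype σ] in
/-- A derivative and a column operator. -/
lemma pderiv_colD (k : Fin m) (c a b : σ) (f : MvPolynomial (Fin m × σ) ℂ) :
    pderiv (k, c) (colD a b f) = colD a b (pderiv (k, c) f) +
      if c = a then pderiv (k, b) f else 0 := by
  have h : ⁅(pderiv (k, c) : Derivation ℂ (MvPolynomial (Fin m × σ) ℂ)
      (MvPolynomial (Fin m × σ) ℂ)), (colD a b : Derivation ℂ (MvPolynomial (Fin m × σ) ℂ)
      (MvPolynomial (Fin m × σ) ℂ))⁆ = if c = a then pderiv (k, b) else 0 := by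
    apply derivation_ext
    rintro ⟨i, l⟩
    rw [Derivation.commutator_apply, colD_X, pderiv_X']
    have h1 : ∀ x : MvPolynomial (Fin m × σ) ℂ, (if (i, l) = (k, c) then
        (1 : MvPolynomial (Fin m × σ) ℂ) else 0) = x → colD a b x = 0 := by
      intro x hx
      rw [← hx]
      split_ifs
      · exact Derivation.map_one_eq_zero _
      · exact map_zero _
    rw [h1 _ rfl, sub_zero]
    by_cases hc : c = a
    · subst hc
      rw [if_pos rfl, pderiv_X']
      by_cases hl : l = b
      · subst hl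
        rw [if_pos rfl, pderiv_X']
        simp
      · rw [if_neg hl, map_zero, if_neg]
        simp [hl]
    · rw [if_neg hc, Derivation.zero_apply]
      split_ifs with hl
      · rw [pderiv_X', if_neg]
        simp only [Prod.mk.injEq, not_and]
        intro _ h2
        exact hc h2.symm
      · exact map_zero _
  have h1 := congrArg (fun D => D f) h
  simp only [Derivation.commutator_apply] at h1
  by_cases hc : c = a
  · rw [if_pos hc] at h1 ⊢
    rw [← h1]
    ring
  · rw [if_neg hc] at h1 ⊢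
    rw [Derivation.zero_apply] at h1
    rw [add_zero]
    exact sub_eq_zero.1 h1

omit [Fintype σ] in
lemma pderiv_comm' (p q : Fin m × σ) (f : MvPolynomial (Fin m × σ) ℂ) :
    pderiv p (pderiv q f) = pderiv q (pderiv p f) := by
  have h : ⁅(pderiv p : Derivation ℂ (MvPolynomial (Fin m × σ) ℂ)
      (MvPolynomial (Fin m × σ) ℂ)), (pderiv q : Derivation ℂ (MvPolynomial (Fin m × σ) ℂ)
      (MvPolynomial (Fin m × σ) ℂ))⁆ = 0 := by
    apply derivation_ext
    intro r
    rw [Derivation.commutator_apply, pderiv_X', pderiv_X', Derivation.zero_apply]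
    split_ifs <;> simp [Derivation.map_one_eq_zero]
  have h1 := congrArg (fun D => D f) h
  simp only [Derivation.commutator_apply, Derivation.zero_apply] at h1
  exact sub_eq_zero.1 h1

/-- The operator `(∂_z ∧ ∂_u)_{i k}`. -/
noncomputable def Om (z u : σ) (i k : Fin m) (f : MvPolynomial (Fin m × σ) ℂ) :
    MvPolynomial (Fin m × σ) ℂ := pderiv (i, z) (pderiv (k, u) f) - pderiv (k, z) (pderiv (i, u) f)

omit [Fintype σ] [DecidableEq σ] in
lemma Om_zero (z u : σ) (i k : Fin m) : Om z u i k (0 : MvPolynomial (Fin m × σ) ℂ) = 0 := by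
  simp [Om]

omit [Fintype σ] [DecidableEq σ] in
lemma Om_add (z u : σ) (i k : Fin m) (f g : MvPolynomial (Fin m × σ) ℂ) :
    Om z u i k (f + g) = Om z u i k f + Om z u i k g := by
  simp only [Om, map_add]
  ring

omit [Fintype σ] [DecidableEq σ] in
lemma Om_sum (z u : σ) (i k : Fin m) {ι : Type} (s : Finset ι)
    (f : ι → MvPolynomial (Fin m × σ) ℂ) :
    Om z u i k (∑ j ∈ s, f j) = ∑ j ∈ s, Om z u i k (f j) := by
  simp only [Om, map_sum, Finset.sum_sub_distrib]

omit [Fintype σ] in
/-- `∂_z ∧ ∂_u` commutes with `q_j · ∂_z`. -/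
lemma Om_colD {z u j : σ} (hj : j ≠ z) (i k : Fin m) (f : MvPolynomial (Fin m × σ) ℂ) :
    Om z u i k (colD j z f) = colD j z (Om z u i k f) := by
  simp only [Om, map_sub, pderiv_colD, if_neg (Ne.symm hj), map_add, add_zero]
  by_cases h : u = j
  · simp only [if_pos h]
    rw [pderiv_comm' (i, z) (k, z)]
    ring
  · simp only [if_neg h, map_zero, add_zero]

omit [Fintype σ] in
/-- `∂_z ∧ ∂_u` commutes with `z · ∂_u`. -/
lemma Om_colD' {z u : σ} (hj : u ≠ z) (i k : Fin m) (f : MvPolynomial (Fin m × σ) ℂ) :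
    Om z u i k (colD z u f) = colD z u (Om z u i k f) := by
  simp only [Om, map_sub, pderiv_colD, if_neg hj, add_zero, if_true]
  rw [pderiv_comm' (i, u) (k, u)]
  ring

/-- Euler's identity, only one column. -/
lemma euler {c : σ} {n : ℕ} (f : MvPolynomial (Fin m × σ) ℂ)
    (hf : ∀ v, coeff v f ≠ 0 → ∑ i, v (i, c) = n) : colD c c f = (n : ℂ) • f := by
  have h0 : f = ∑ v ∈ f.support, monomial v (coeff v f) := f.as_sum
  have h1 : colD c c f = ∑ v ∈ f.support, colD c c (monomial v (coeff v f)) := by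
    conv_lhs => rw [h0]
    exact map_sum _ _ _
  rw [h1]
  conv_rhs => rw [h0]
  rw [Finset.smul_sum]
  apply Finset.sum_congr rfl
  intro v hv
  rw [colD_eq]
  simp_rw [X_mul_pderiv_monomial]
  rw [← Finset.sum_smul, hf v (mem_support_iff.1 hv)]
  exact (Nat.cast_smul_eq_nsmul ℂ _ _).symm

/-- The Capelli identity. -/
lemma capelli {z u : σ} (hj : u ≠ z) (f : MvPolynomial (Fin m × σ) ℂ) :
    ∑ i : Fin m, ∑ k : Fin m, X (i, z) * (X (k, u) * Om z u i k f) =
      colD z z (colD u u f) - colD u z (colD z u f) + colD u u f := by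
  have h1 : colD z z (colD u u f) = ∑ i : Fin m, ∑ k : Fin m,
      X (i, z) * (X (k, u) * pderiv (i, z) (pderiv (k, u) f)) := by
    rw [colD_eq]
    refine Finset.sum_congr rfl fun i _ => ?_
    rw [pderiv_colD, if_neg (Ne.symm hj), add_zero, colD_eq, Finset.mul_sum]
    refine Finset.sum_congr rfl fun k _ => ?_
    rw [pderiv_comm' (k, u) (i, z)]
  have h2 : colD u z (colD z u f) = ∑ i : Fin m, ∑ k : Fin m,
      X (i, z) * (X (k, u) * pderiv (k, z) (pderiv (i, u) f)) + colD u u f := by
    rw [Finset.sum_comm, colD_eq u z, colD_eq u u, ← Finset.sum_add_distrib]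
    refine Finset.sum_congr rfl fun k _ => ?_
    rw [pderiv_colD, if_pos rfl, mul_add]
    congr 1
    rw [colD_eq, Finset.mul_sum]
    refine Finset.sum_congr rfl fun i _ => ?_
    rw [pderiv_comm' (i, u) (k, z)]
    ring
  have h3 : ∑ i : Fin m, ∑ k : Fin m, X (i, z) * (X (k, u) * Om z u i k f) =
      ∑ i : Fin m, ∑ k : Fin m, X (i, z) * (X (k, u) * pderiv (i, z) (pderiv (k, u) f)) -
      ∑ i : Fin m, ∑ k : Fin m, X (i, z) * (X (k, u) * pderiv (k, z) (pderiv (i, u) f)) := by
    rw [← Finset.sum_sub_distrib]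
    refine Finset.sum_congr rfl fun i _ => ?_
    rw [← Finset.sum_sub_distrib]
    refine Finset.sum_congr rfl fun k _ => ?_
    rw [Om]
    ring
  rw [h3, h1, h2]
  ring

/-- `∂_z ∧ ∂_u` is injective on the kernel of `z · ∂_u`. -/
lemma Om_inj {z u : σ} (hj : u ≠ z) {x y : ℕ} (hy : 1 ≤ y) (f : MvPolynomial (Fin m × σ) ℂ)
    (hf : ∀ v, coeff v f ≠ 0 → ∑ i, v (i, z) = x ∧ ∑ i, v (i, u) = y)
    (hz : colD z u f = 0) (h : ∀ i k, Om z u i k f = 0) : f = 0 := by
  have h1 := capelli hj f
  rw [hz, map_zero, euler f (fun v hv => (hf v hv).2)] at h1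
  have h2 : colD z z ((y : ℂ) • f) = ((x : ℂ) * y) • f := by
    rw [Derivation.map_smul, euler f (fun v hv => (hf v hv).1), smul_smul]
    congr 1
    ring
  rw [h2] at h1
  have h3 : ∑ i : Fin m, ∑ k : Fin m, X (i, z) * (X (k, u) * Om z u i k f) = 0 := by
    refine Finset.sum_eq_zero fun i _ => Finset.sum_eq_zero fun k _ => ?_
    rw [h i k, mul_zero, mul_zero]
  rw [h3, sub_zero, ← add_smul] at h1
  have h4 : (x : ℂ) * y + y ≠ 0 := by
    have h5 : (x : ℂ) * y + y = ((x * y + y : ℕ) : ℂ) := by push_cast; ring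
    rw [h5, Nat.cast_ne_zero]
    omega
  exact (smul_eq_zero.1 h1.symm).resolve_left h4

end Vale.Agent.P181.O2.H352
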