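import Vale.Agent.P181.TW.T5.Fin

set_option autoImplicit false

/-!
# P181, O2, A4: the polynomials `R_l` in free coordinates

Columns: `z`, `v` and the columns of a list `l`. `QB l z = ∑ j ∈ l, q_j · ∂_z`,
`RL = (q̄ · ∂_z) ∏_{i ∈ l} (q_i · ∂_z) Q + ∑_{j ∈ l} (q̄ · ∂_z) ∏_{i ∈ l, i ≠ j} (q_i · ∂_z) G(v = q_j)
- ∏_{i ∈ l} (q_i · ∂_z) G(v = q̄)`, `q̄ = ∑_{j ∈ l} q_j`.
-/

open MvPolynomial

namespace Vale.Agent.P181.O2.H352

open Vale.Agent.P181.SZR3 (colD)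
open Vale.Agent.P181.DG6.H887 (lsub)
open Vale.Agent.P181.TW.H312 (opL)

variable {m : ℕ} {σ : Type} [Fintype σ] [DecidableEq σ]

/-- `∑ j ∈ l, q_j · ∂_z`. -/
noncomputable def QB (z : σ) (l : List σ) (f : MvPolynomial (Fin m × σ) ℂ) :
    MvPolynomial (Fin m × σ) ℂ := ∑ j ∈ l.toFinset, colD j z f

/-- The substitution `v ↦ ∑ c, w c q_c`, the other columns stay. -/
noncomputable def sv (m : ℕ) (v : σ) (w : σ → ℂ) :
    MvPolynomial (Fin m × σ) ℂ →ₐ[ℂ] MvPolynomial (Fin m × σ) ℂ :=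
  lsub m (fun j c => if j = v then w c else if j = c then 1 else 0)

/-- The columns of `K` are set to zero. -/
noncomputable def kl (m : ℕ) (K : Finset σ) :
    MvPolynomial (Fin m × σ) ℂ →ₐ[ℂ] MvPolynomial (Fin m × σ) ℂ :=
  lsub m (fun j c => if j = c ∧ j ∉ K then 1 else 0)

/-- The polynomial `R_l`. -/
noncomputable def RL (z v : σ) (l : List σ) (Q G : MvPolynomial (Fin m × σ) ℂ) :
    MvPolynomial (Fin m × σ) ℂ :=
  QB z l (opL z l Q) +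
    ∑ j ∈ l.toFinset, QB z l (opL z (l.erase j) (sv m v (fun c => if c = j then 1 else 0) G)) -
    opL z l (sv m v (fun c => if c ∈ l then 1 else 0) G)

/-- Degree `x` in `z`, degree `y` in `v`, degree `≤ D` in the columns of `l`, degree `0` in the
other columns. -/
def DB (z v : σ) (l : List σ) (x y D : ℕ) (f : MvPolynomial (Fin m × σ) ℂ) : Prop :=
  ∀ u, coeff u f ≠ 0 → ∑ i, u (i, z) = x ∧ ∑ i, u (i, v) = y ∧ (∀ c ∈ l, ∑ i, u (i, c) ≤ D) ∧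
    ∀ c, c ∉ l → c ≠ z → c ≠ v → ∑ i, u (i, c) = 0

/-- **(Core G)** -/
def CoreGStmt : Prop := ∀ {m : ℕ} {σ : Type} [Fintype σ] [DecidableEq σ] (z v : σ) (l : List σ)
  (x x' D : ℕ) (Q G : MvPolynomial (Fin m × σ) ℂ), z ≠ v → l.Nodup → z ∉ l → v ∉ l →
  2 ≤ l.length → DB z v l x 0 D Q → DB z v l x' 2 D G → colD z v G = 0 →
  l.length + D + 4 ≤ x' → l.length + D + 4 ≤ x → RL z v l Q G = 0 → ∀ u ∈ l, kl m {u} G = 0

/-- **(Core Q)** -/
def CoreQStmt : Prop := ∀ {m : ℕ} {σ : Type} [Fintype σ] [DecidableEq σ] (z v : σ) (l : List σ)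
  (x D : ℕ) (Q : MvPolynomial (Fin m × σ) ℂ), z ≠ v → l.Nodup → z ∉ l → v ∉ l →
  1 ≤ l.length → DB z v l x 0 D Q → l.length + D + 4 ≤ x → RL z v l Q 0 = 0 → Q = 0

/-- **(Peel)** one more column set to zero (helper726, (p1)). -/
def PeelStmt : Prop := ∀ {m : ℕ} {σ : Type} [Fintype σ] [DecidableEq σ] (z v k : σ) (l : List σ)
  (x x' D : ℕ) (Q G : MvPolynomial (Fin m × σ) ℂ), z ≠ v → (k :: l).Nodup → z ∉ k :: l →
  v ∉ k :: l → 1 ≤ l.length → DB z v (k :: l) x 0 D Q → DB z v (k :: l) x' 2 D G → x = x' + 1 →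
  l.length + 1 ≤ x' → RL z v (k :: l) Q G = 0 → RL z v l (kl m {k} Q) (kl m {k} G) = 0

end Vale.Agent.P181.O2.H352
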