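import Vale.Agent.P181.O2.H352.Bridge

set_option autoImplicit false

/-!
# P181, O2, A4, bridge: the relation `RL = 0` in the free columns
-/

open MvPolynomial

namespace Vale.Agent.P181.O2.H352

open Vale.Agent.P181.SZR3 (colD colD_X colD_eq exists_coeff_colD sum_single_col)
open Vale.Agent.P181.DG6.H887 (lsub lsub_X eval_lsub lsub_deg)
open Vale.Agent.P181.TW.H312 (opL opL_nil opL_cons opL_perm opL_zero opL_append colD_comm)
open Vale.Agent.P181.TW.T5 (lsub_lsub cen EE EE_castSucc EE_last eval_congr)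
open Vale.Agent.P181.O2.H726 (bq BQ CQ opL_add opL_neg)
open Vale.Agent.P181.O2.H244 (PR mem_PR occ)

section gen

variable {m : ℕ} {σ : Type} [DecidableEq σ]

/-- The indicator of a list. -/
noncomputable def ind (l : List σ) : σ → ℂ := fun c => if c ∈ l then 1 else 0

lemma ind_mem {l : List σ} {c : σ} (h : c ∈ l) : ind l c = 1 := if_pos h

lemma ind_not {l : List σ} {c : σ} (h : c ∉ l) : ind l c = 0 := if_neg h

/-- The list without one entry. -/
def er (l : List σ) (j : σ) : List σ := l.erase j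

lemma er_map {τ : Type} [DecidableEq τ] {f : τ → σ} (hf : Function.Injective f) (l : List τ)
    (j : τ) : er (l.map f) (f j) = (l.erase j).map f := (List.map_erase hf l).symm

lemma RL_def [Fintype σ] (z v : σ) (l : List σ) (Q G : MvPolynomial (Fin m × σ) ℂ) :
    RL z v l Q G = QB z l (opL z l Q) +
      ∑ j ∈ l.toFinset, QB z l (opL z (er l j) (sv m v (fun c => if c = j then 1 else 0) G)) -
      opL z l (sv m v (ind l) G) := rfl

end gen

variable {m : ℕ} {α : Type} [Fintype α] [DecidableEq α] {M : ℕ}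

lemma eval_ph (x : Fin m × (α ⊕ Fin M) → ℂ) (G : MvPolynomial (Fin m × (α ⊕ Fin (M + 1))) ℂ) :
    eval x (ph m α M G) = eval (fun p => Sum.elim (fun a => x (p.1, Sum.inl a))
      (fun j => ∑ c, EE M j c * x (p.1, Sum.inr c)) p.2) G := by
  rw [ph, eval_lsub]
  refine eval_congr _ fun p => ?_
  obtain ⟨i, o⟩ := p
  rw [Fintype.sum_sum_type]
  cases o <;> simp [exS]

lemma eval_sv' {σ : Type} [Fintype σ] [DecidableEq σ] (v : σ) (w : σ → ℂ) (x : Fin m × σ → ℂ)
    (G : MvPolynomial (Fin m × σ) ℂ) : eval x (sv m v w G) =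
      eval (fun p => if p.2 = v then ∑ c, w c * x (p.1, c) else x p) G := by
  rw [sv, eval_lsub]
  refine eval_congr _ fun p => ?_
  obtain ⟨i, o⟩ := p
  by_cases h : o = v
  · simp [h]
  · simp [h]

/-- One column. -/
lemma ph_sv_castSucc (v : α) (j : Fin M) (G : MvPolynomial (Fin m × (α ⊕ Fin (M + 1))) ℂ) :
    ph m α M (H726.sv v j.castSucc G) =
      sv m (Sum.inl v) (fun c => if c = Sum.inr j then 1 else 0) (ph m α M G) := by
  apply MvPolynomial.funext
  intro x
  rw [eval_sv', eval_ph, eval_ph, H726.sv, eval_rename]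
  refine eval_congr _ fun p => ?_
  obtain ⟨i, o⟩ := p
  simp only [Function.comp_apply]
  cases o with
  | inl a =>
    by_cases h : a = v
    · subst h
      simp [EE_castSucc]
    · simp [h]
  | inr k => simp

/-- The sign does not matter in degree two. -/
lemma sgn2 {σ : Type} [Fintype σ] [DecidableEq σ] (v : σ) (x y : Fin m × σ → ℂ)
    (h1 : ∀ i, x (i, v) = - y (i, v)) (h2 : ∀ p : Fin m × σ, p.2 ≠ v → x p = y p)
    (G : MvPolynomial (Fin m × σ) ℂ) (hG : ∀ u, coeff u G ≠ 0 → ∑ i, u (i, v) = 2) :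
    eval x G = eval y G := by
  rw [eval_eq', eval_eq']
  refine Finset.sum_congr rfl fun d hd => ?_
  congr 1
  have h3 : ∀ p : Fin m × σ, x p ^ d p = (if p.2 = v then (-1 : ℂ) else 1) ^ d p * y p ^ d p := by
    intro p
    rw [← mul_pow]
    congr 1
    obtain ⟨i, o⟩ := p
    by_cases h : o = v
    · subst h
      simp [h1]
    · rw [h2 (i, o) h]
      simp [h]
  rw [Finset.prod_congr rfl fun p _ => h3 p, Finset.prod_mul_distrib]
  have h4 : ∏ p : Fin m × σ, (if p.2 = v then (-1 : ℂ) else 1) ^ d p = 1 := by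
    rw [Fintype.prod_prod_type]
    have h5 : ∀ i : Fin m, ∏ o : σ, (if ((i, o) : Fin m × σ).2 = v then (-1 : ℂ) else 1) ^ d (i, o) =
        (-1) ^ d (i, v) := by
      intro i
      rw [Finset.prod_eq_single v]
      · simp
      · intro o _ ho
        simp [ho]
      · intro h'
        exact absurd (Finset.mem_univ _) h'
    rw [Finset.prod_congr rfl fun i _ => h5 i, Finset.prod_pow_eq_pow_sum,
      hG d (mem_support_iff.1 hd)]
    norm_num
  rw [h4, one_mul]

/-- All columns. -/
lemma ph_sv_last (v : α) (G : MvPolynomial (Fin m × (α ⊕ Fin (M + 1))) ℂ)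
    (hG : ∀ u, coeff u G ≠ 0 → ∑ i, u (i, Sum.inl v) = 2) :
    ph m α M (H726.sv v (Fin.last M) G) =
      sv m (Sum.inl v) (ind ((List.finRange M).map Sum.inr)) (ph m α M G) := by
  apply MvPolynomial.funext
  intro x
  rw [eval_sv', eval_ph, eval_ph, H726.sv, eval_rename]
  have hl : ∀ a : α, ind ((List.finRange M).map Sum.inr) (Sum.inl a : α ⊕ Fin M) = 0 :=
    fun a => ind_not (by simp)
  have hr : ∀ c : Fin M, ind ((List.finRange M).map Sum.inr) (Sum.inr c : α ⊕ Fin M) = 1 :=
    fun c => ind_mem (by simp)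
  refine sgn2 (Sum.inl v) _ _ (fun i => ?_) (fun p hp => ?_) G hG
  · simp [EE_last, Fintype.sum_sum_type, hl, hr]
  · obtain ⟨i, o⟩ := p
    cases o with
    | inl a =>
      have h : a ≠ v := fun h => hp (by rw [h])
      simp [h]
    | inr k => simp

omit [Fintype α] in
lemma SZ_eq (z : α) (f : MvPolynomial (Fin m × (α ⊕ Fin M)) ℂ) :
    SZ z f = QB (Sum.inl z) ((List.finRange M).map Sum.inr) f := by
  rw [SZ, QB]
  have h : ((List.finRange M).map (Sum.inr : Fin M → α ⊕ Fin M)).toFinset =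
      (Finset.univ : Finset (Fin M)).image (Sum.inr : Fin M → α ⊕ Fin M) := by
    ext x
    simp
  rw [h, Finset.sum_image]
  intro x _ y _ h
  exact Sum.inr_injective h

/-- `QB` and `opL` commute. -/
lemma opL_QB {σ : Type} [Fintype σ] [DecidableEq σ] {z : σ} (l l' : List σ) (hz : z ∉ l)
    (hz' : z ∉ l') (f : MvPolynomial (Fin m × σ) ℂ) : opL z l (QB z l' f) = QB z l' (opL z l f) := by
  induction l generalizing f with
  | nil => rfl
  | cons j l ih =>
    have hj : j ≠ z := fun h => hz (by simp [h])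
    rw [opL_cons, opL_cons, ← ih fun h => hz (List.mem_cons_of_mem _ h)]
    congr 1
    rw [QB, QB, map_sum]
    refine Finset.sum_congr rfl fun k hk => ?_
    exact colD_comm hj (fun h => hz' (h ▸ List.mem_toFinset.1 hk)) f

/-- **The relation in the free columns.** -/
theorem RL_of (z v : α) (Q G : MvPolynomial (Fin m × (α ⊕ Fin (M + 1))) ℂ)
    (hG : ∀ u, coeff u G ≠ 0 → ∑ i, u (i, Sum.inl v) = 2)
    (h0 : ph m α M (opL (Sum.inl z) ((List.finRange (M + 1)).map Sum.inr) Q +
      ∑ j : Fin (M + 1), opL (Sum.inl z) (((List.finRange (M + 1)).erase j).map Sum.inr)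
        (H726.sv v j G)) = 0) :
    RL (Sum.inl z) (Sum.inl v) ((List.finRange M).map Sum.inr) (ph m α M Q) (ph m α M G) = 0 := by
  rw [map_add, ph_BQ, ph_CQ, ph_sv_last v G hG] at h0
  have hz : (Sum.inl z : α ⊕ Fin M) ∉ (List.finRange M).map Sum.inr := by simp
  have h1 : ∑ j ∈ ((List.finRange M).map (Sum.inr : Fin M → α ⊕ Fin M)).toFinset,
      QB (Sum.inl z) ((List.finRange M).map Sum.inr) (opL (Sum.inl z)
        (er ((List.finRange M).map Sum.inr) j)
        (sv m (Sum.inl v) (fun c => if c = j then 1 else 0) (ph m α M G))) =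
      ∑ j : Fin M, opL (Sum.inl z) (((List.finRange M).erase j).map Sum.inr)
        (SZ z (ph m α M (H726.sv v j.castSucc G))) := by
    have h : ((List.finRange M).map (Sum.inr : Fin M → α ⊕ Fin M)).toFinset =
        (Finset.univ : Finset (Fin M)).image (Sum.inr : Fin M → α ⊕ Fin M) := by
      ext x
      simp
    rw [h, Finset.sum_image fun x _ y _ h => Sum.inr_injective h]
    refine Finset.sum_congr rfl fun j _ => ?_
    rw [ph_sv_castSucc, SZ_eq, opL_QB _ _ (by simp) hz, er_map Sum.inr_injective]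
  rw [RL_def, h1, ← opL_QB _ _ hz hz, ← SZ_eq, ← neg_eq_zero, ← h0]
  ring

/-! ### The degrees -/

/-- Degrees of `sv`. -/
lemma deg_sv {n : ℕ} (z v : α) (hzv : z ≠ v) (j : Fin n)
    (G : MvPolynomial (Fin m × (α ⊕ Fin n)) ℂ) {x : ℕ}
    (hG : ∀ u, coeff u G ≠ 0 → ∑ i, u (i, Sum.inl z) = x) (u : Fin m × (α ⊕ Fin n) →₀ ℕ)
    (hu : coeff u (H726.sv v j G) ≠ 0) :
    ∑ i, u (i, Sum.inl z) = x ∧ ∑ i, u (i, Sum.inl v) = 0 := by
  rw [sv_eq] at hu
  constructor
  · have h1 := lsub_deg (m := m) (svA v j) (fun o => o = Sum.inl z) (fun o => o = Sum.inl z) (by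
      intro o c hoc
      by_cases ho : o = Sum.inl v
      · subst ho
        have hc : Sum.inr j = c := by
          by_contra h
          exact hoc (by rw [svA, if_pos rfl, if_neg h])
        rw [← hc]
        simp [Ne.symm hzv]
      · have hc : o = c := by
          by_contra h
          exact hoc (by rw [svA, if_neg ho, if_neg h])
        rw [hc]) (n := x) (f := G) (by
        intro v hv
        rw [Finset.sum_ite_eq' Finset.univ (Sum.inl z), if_pos (Finset.mem_univ _)]
        exact hG v hv) u hu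
    rwa [Finset.sum_ite_eq' Finset.univ (Sum.inl z), if_pos (Finset.mem_univ _)] at h1
  · have h1 := lsub_deg (m := m) (svA v j) (fun _ => False) (fun o => o = Sum.inl v) (by
      intro o c hoc
      by_cases ho : o = Sum.inl v
      · subst ho
        have hc : Sum.inr j = c := by
          by_contra h
          exact hoc (by rw [svA, if_pos rfl, if_neg h])
        rw [← hc]
        simp
      · have hc : o = c := by
          by_contra h
          exact hoc (by rw [svA, if_neg ho, if_neg h])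
        rw [← hc]
        simp [ho]) (n := 0) (f := G) (by simp) u hu
    rwa [Finset.sum_ite_eq' Finset.univ (Sum.inl v), if_pos (Finset.mem_univ _)] at h1

/-- The letters of `Q` renamed. -/
noncomputable def uq (m n : ℕ) : MvPolynomial (Fin m × (Unit ⊕ Fin n)) ℂ →ₐ[ℂ]
    MvPolynomial (Fin m × (Bool ⊕ Fin n)) ℂ :=
  rename fun p => (p.1, Sum.map (fun _ => true) id p.2)

lemma uq_inj (n : ℕ) : Function.Injective
    (fun p : Fin m × (Unit ⊕ Fin n) => ((p.1, Sum.map (fun _ => true) id p.2) :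
      Fin m × (Bool ⊕ Fin n))) := by
  rintro ⟨i, a⟩ ⟨j, b⟩ h
  simp only [Prod.mk.injEq] at h
  obtain ⟨h1, h2⟩ := h
  subst h1
  cases a <;> cases b <;> simp at h2 ⊢
  exact h2

lemma uq_injective (n : ℕ) : Function.Injective (uq m n) := rename_injective _ (uq_inj n)

lemma coeff_uq {n : ℕ} {Q : MvPolynomial (Fin m × (Unit ⊕ Fin n)) ℂ}
    {u : Fin m × (Bool ⊕ Fin n) →₀ ℕ} (hu : coeff u (uq m n Q) ≠ 0) :
    ∃ w, coeff w Q ≠ 0 ∧ (∀ i, u (i, Sum.inl true) = w (i, Sum.inl ())) ∧
      (∀ i, u (i, Sum.inl false) = 0) ∧ ∀ i j, u (i, Sum.inr j) = w (i, Sum.inr j) := by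
  obtain ⟨w, hw, hw2⟩ := coeff_rename_ne_zero _ _ _ hu
  refine ⟨w, hw2, fun i => ?_, fun i => ?_, fun i j => ?_⟩
  · rw [← hw]
    exact Finsupp.mapDomain_apply (uq_inj n) w (i, Sum.inl ())
  · rw [← hw]
    apply Finsupp.mapDomain_of_notMem_range
    rintro ⟨⟨a, b⟩, hab⟩
    cases b <;> simp at hab
  · rw [← hw]
    exact Finsupp.mapDomain_apply (uq_inj n) w (i, Sum.inr j)

lemma BQ_uq {n : ℕ} (Q : MvPolynomial (Fin m × (Unit ⊕ Fin n)) ℂ) :
    BQ true (uq m n Q) = BQ () Q := by
  have h1 : opL (Sum.inl true) ((List.finRange n).map Sum.inr) (uq m n Q) =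
      uq m n (opL (Sum.inl ()) ((List.finRange n).map Sum.inr) Q) := by
    have key : ∀ (l : List (Fin n)) (f : MvPolynomial (Fin m × (Unit ⊕ Fin n)) ℂ),
        opL (Sum.inl true) (l.map Sum.inr) (uq m n f) =
          uq m n (opL (Sum.inl ()) (l.map Sum.inr) f) := by
      intro l
      induction l with
      | nil => intro f; rfl
      | cons j l ih =>
        intro f
        rw [List.map_cons, List.map_cons, opL_cons, opL_cons, ← ih]
        congr 1
        have h2 := DG4a.rn_colD (m := m) (Sum.map (fun _ => true) id : Unit ⊕ Fin n → Bool ⊕ Fin n)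
          (Sum.inr j) (Sum.inl ()) (fun x hx => by
            cases x with
            | inl x => rfl
            | inr x => simp at hx) f
        exact h2.symm
    exact key _ _
  rw [BQ, BQ, h1]
  apply MvPolynomial.funext
  intro x
  rw [eval_lsub, eval_lsub, uq, eval_rename]
  refine eval_congr _ fun p => ?_
  obtain ⟨i, o⟩ := p
  cases o <;> simp [bq]

variable {c h : ℕ} {mu : Fin m → ℕ}

/-- The marked degrees of the two families vanish. -/
lemma marked_zero {B : ℕ} {Q : MvPolynomial (Fin m × (Unit ⊕ Fin (c + 1))) ℂ}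
    {G : MvPolynomial (Fin m × (Bool ⊕ Fin (c + 1))) ℂ}
    (hQ : Q ∈ PR m (h + 1) B Unit (fun _ => c + 1) ∅ (c + 1) mu)
    (hG : G ∈ PR m (h + 1) B Bool (fun b => if b then c else 2) {(true, false)} (c + 1) mu) :
    ∀ u, coeff u (opL (Sum.inl true) ((List.finRange (c + 1)).map Sum.inr) (uq m (c + 1) Q) +
      ∑ j : Fin (c + 1), opL (Sum.inl true) (((List.finRange (c + 1)).erase j).map Sum.inr)
        (H726.sv false j G)) ≠ 0 → ∀ a : Bool, ∑ i, u (i, Sum.inl a) = 0 := by
  obtain ⟨_, q2, _, _, _⟩ := mem_PR.1 hQ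
  obtain ⟨_, g2, _, _, _⟩ := mem_PR.1 hG
  have hgz : ∀ u, coeff u G ≠ 0 → ∑ i, u (i, Sum.inl true) = c := fun u hu => by
    simpa using (g2 u hu).1 true
  intro u hu a
  have hcase : coeff u (opL (Sum.inl true) ((List.finRange (c + 1)).map Sum.inr)
      (uq m (c + 1) Q)) ≠ 0 ∨ ∃ j : Fin (c + 1), coeff u (opL (Sum.inl true)
        (((List.finRange (c + 1)).erase j).map Sum.inr) (H726.sv false j G)) ≠ 0 := by
    by_contra hcon
    push Not at hcon
    apply hu
    rw [coeff_add, hcon.1, zero_add, coeff_sum]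
    exact Finset.sum_eq_zero fun j _ => hcon.2 j
  rcases hcase with h1 | ⟨j, h1⟩
  · obtain ⟨w, hw, h2, h3⟩ := deg_opL _ (by simp)
      ((List.nodup_finRange _).map Sum.inr_injective) _ u h1
    obtain ⟨w', hw', h4, h5, h6⟩ := coeff_uq hw
    have h7 := (q2 w' hw').1 ()
    cases a with
    | true =>
      rw [List.length_map, List.length_finRange, Finset.sum_congr rfl fun i _ => h4 i, h7] at h2
      omega
    | false =>
      have h8 := h3 (Sum.inl false) (by simp)
      rw [h8, if_neg (by simp), Finset.sum_congr rfl fun i _ => h5 i]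
      simp
  · obtain ⟨w, hw, h2, h3⟩ := deg_opL _ (by simp)
      (((List.nodup_finRange _).erase j).map Sum.inr_injective) _ u h1
    obtain ⟨h4, h5⟩ := deg_sv true false (by simp) j G hgz w hw
    cases a with
    | true =>
      rw [List.length_map, List.length_erase_of_mem (List.mem_finRange j),
        List.length_finRange, h4] at h2
      omega
    | false =>
      have h8 := h3 (Sum.inl false) (by simp)
      rw [h8, if_neg (by simp), h5]

/-- **(1)** -/
theorem bridge_RL {B : ℕ} {Q : MvPolynomial (Fin m × (Unit ⊕ Fin (c + 1))) ℂ}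
    {G : MvPolynomial (Fin m × (Bool ⊕ Fin (c + 1))) ℂ}
    (hQ : Q ∈ PR m (h + 1) B Unit (fun _ => c + 1) ∅ (c + 1) mu)
    (hG : G ∈ PR m (h + 1) B Bool (fun b => if b then c else 2) {(true, false)} (c + 1) mu)
    (h0 : BQ () Q + CQ true false G = 0) :
    RL (Sum.inl true) (Sum.inl false) ((List.finRange c).map Sum.inr)
      (ph m Bool c (uq m (c + 1) Q)) (ph m Bool c G) = 0 := by
  obtain ⟨_, g2, _, _, _⟩ := mem_PR.1 hG
  refine RL_of true false _ G (fun u hu => by simpa using (g2 u hu).1 false) ?_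
  refine ph_zero _ (marked_zero hQ hG) ?_
  rw [map_add, ← h0, ← BQ_uq]
  rfl

omit [Fintype α] in
lemma occ_bound {w' : Fin m × (α ⊕ Fin (M + 1)) →₀ ℕ} {w : Fin m × (α ⊕ Fin M) →₀ ℕ}
    (hw : Mv (exS (EE M)) w' w) : (occ w).card ≤ (occ w').card +
      ∑ i, w' (i, Sum.inr (Fin.last M)) := by
  classical
  obtain ⟨T, hT, hT2⟩ := Mv_occ hw
  have h1 : occ w ⊆ T ∪ (occ w').preimage Fin.castSucc (Fin.castSucc_injective M).injOn := by
    intro b hb
    rw [occ, Finset.mem_filter] at hb
    rcases hT2 b hb.2 with h | h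
    · exact Finset.mem_union_left _ h
    · refine Finset.mem_union_right _ ?_
      rw [Finset.mem_preimage, occ, Finset.mem_filter]
      exact ⟨Finset.mem_univ _, h⟩
  have h2 := Finset.card_le_card h1
  have h3 := Finset.card_union_le T
    ((occ w').preimage Fin.castSucc (Fin.castSucc_injective M).injOn)
  have h4 : ((occ w').preimage Fin.castSucc (Fin.castSucc_injective M).injOn).card ≤
      (occ w').card := by
    refine Finset.card_le_card_of_injOn Fin.castSucc (fun b hb => ?_)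
      (Fin.castSucc_injective M).injOn
    exact Finset.mem_preimage.1 hb
  omega

/-- **(2)** for `G`. -/
theorem bridge_G {B : ℕ} {G : MvPolynomial (Fin m × (Bool ⊕ Fin (c + 1))) ℂ}
    (hG : G ∈ PR m (h + 1) B Bool (fun b => if b then c else 2) {(true, false)} (c + 1) mu) :
    DB (Sum.inl true) (Sum.inl false) ((List.finRange c).map Sum.inr) c 2 (2 * h)
      (ph m Bool c G) ∧ colD (Sum.inl true) (Sum.inl false) (ph m Bool c G) = 0 ∧
      ∀ u, coeff u (ph m Bool c G) ≠ 0 → (occ u).card ≤ B + h := by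
  obtain ⟨_, g2, _, _, g5⟩ := mem_PR.1 hG
  refine ⟨fun u hu => ?_, ?_, fun u hu => ?_⟩
  · obtain ⟨w, hw, h1⟩ := exists_Mv _ G u hu
    obtain ⟨h2, h3, _⟩ := g2 w hw
    refine ⟨?_, ?_, fun b hb => ?_, fun b hb hb1 hb2 => ?_⟩
    · rw [Mv_inl h1]
      simpa using h2 true
    · rw [Mv_inl h1]
      simpa using h2 false
    · obtain ⟨b, _, rfl⟩ := List.mem_map.1 hb
      have h4 := Mv_deg h1 b
      have h5 := h3 b.castSucc
      have h6 := h3 (Fin.last c)
      omega
    · exfalso
      cases b with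
      | inl b => cases b <;> simp_all
      | inr b => simp at hb
  · have h1 := TW5.lsub_colD (m := m) (exS (α := Bool) (EE c)) (Sum.inl true) (Sum.inl false)
      (Sum.inl false) (fun o => by cases o <;> simp [exS, eq_comm]) (fun o ho => by
        cases o with
        | inl o => cases o <;> simp_all [exS]
        | inr o => simp [exS]) (by simp) G
    have h2 : colD (Sum.inl true) (Sum.inl false) G = 0 := by
      rw [colD_eq]
      exact g5 (true, false) (by simp)
    rw [h2, map_zero, Fintype.sum_sum_type] at h1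
    have h3 : ∑ o : Fin c, exS (α := Bool) (EE c) (Sum.inl true) (Sum.inr o) •
        colD (Sum.inr o) (Sum.inl false) (lsub m (exS (EE c)) G) = 0 := by
      refine Finset.sum_eq_zero fun o _ => ?_
      change (0 : ℂ) • _ = _
      rw [zero_smul]
    rw [h3, add_zero, Fintype.sum_bool] at h1
    simpa [exS, ph] using h1.symm
  · obtain ⟨w, hw, h1⟩ := exists_Mv _ G u hu
    obtain ⟨_, h3, h4⟩ := g2 w hw
    have h5 := occ_bound h1
    have h6 := h3 (Fin.last c)
    omega

/-- **(2)** for `Q`. -/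
theorem bridge_Q {B : ℕ} {Q : MvPolynomial (Fin m × (Unit ⊕ Fin (c + 1))) ℂ}
    (hQ : Q ∈ PR m (h + 1) B Unit (fun _ => c + 1) ∅ (c + 1) mu) :
    DB (Sum.inl true) (Sum.inl false) ((List.finRange c).map Sum.inr) (c + 1) 0 (2 * h)
      (ph m Bool c (uq m (c + 1) Q)) ∧
      ∀ u, coeff u (ph m Bool c (uq m (c + 1) Q)) ≠ 0 → (occ u).card ≤ B + h := by
  obtain ⟨_, q2, _, _, _⟩ := mem_PR.1 hQ
  have key : ∀ w, coeff w (uq m (c + 1) Q) ≠ 0 → ∑ i, w (i, Sum.inl true) = c + 1 ∧
      ∑ i, w (i, Sum.inl false) = 0 ∧ (∀ j, ∑ i, w (i, Sum.inr j) ≤ h) ∧ (occ w).card ≤ B := by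
    intro w hw
    obtain ⟨v, hv, h1, h2, h3⟩ := coeff_uq hw
    obtain ⟨h4, h5, h6⟩ := q2 v hv
    refine ⟨?_, ?_, fun j => ?_, ?_⟩
    · rw [Finset.sum_congr rfl fun i _ => h1 i]
      exact h4 ()
    · rw [Finset.sum_congr rfl fun i _ => h2 i]
      simp
    · rw [Finset.sum_congr rfl fun i _ => h3 i j]
      have := h5 j
      omega
    · have h7 : occ w = occ v := by
        ext j
        simp only [occ, Finset.mem_filter, h3]
      rw [h7]
      exact h6
  refine ⟨fun u hu => ?_, fun u hu => ?_⟩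
  · obtain ⟨w, hw, h1⟩ := exists_Mv _ _ u hu
    obtain ⟨h2, h2', h3, _⟩ := key w hw
    refine ⟨?_, ?_, fun b hb => ?_, fun b hb hb1 hb2 => ?_⟩
    · rw [Mv_inl h1, h2]
    · rw [Mv_inl h1, h2']
    · obtain ⟨b, _, rfl⟩ := List.mem_map.1 hb
      have h4 := Mv_deg h1 b
      have h5 := h3 b.castSucc
      have h6 := h3 (Fin.last c)
      omega
    · exfalso
      cases b with
      | inl b => cases b <;> simp_all
      | inr b => simp at hb
  · obtain ⟨w, hw, h1⟩ := exists_Mv _ _ u hu
    obtain ⟨_, _, h3, h4⟩ := key w hw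
    have h5 := occ_bound h1
    have h6 := h3 (Fin.last c)
    omega

/-- **(4)** for `Q`. -/
theorem bridge_Q_zero {B : ℕ} {Q : MvPolynomial (Fin m × (Unit ⊕ Fin (c + 1))) ℂ}
    (hQ : Q ∈ PR m (h + 1) B Unit (fun _ => c + 1) ∅ (c + 1) mu)
    (h0 : ph m Bool c (uq m (c + 1) Q) = 0) : Q = 0 := by
  obtain ⟨_, _, _, q4, _⟩ := mem_PR.1 hQ
  apply uq_injective (m := m) (c + 1)
  rw [map_zero]
  refine ph_inj _ (fun i => ?_) h0
  have h1 : ∀ j : Fin (c + 1), pderiv (i, (Sum.inr j : Bool ⊕ Fin (c + 1))) (uq m (c + 1) Q) =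
      uq m (c + 1) (pderiv (i, (Sum.inr j : Unit ⊕ Fin (c + 1))) Q) := fun j =>
    pderiv_rename (uq_inj (c + 1)) (i, Sum.inr j) Q
  rw [Finset.sum_congr rfl fun j _ => h1 j, ← map_sum, q4 i, map_zero]

/-- **(4)** for `G`. -/
theorem bridge_G_zero {B : ℕ} {G : MvPolynomial (Fin m × (Bool ⊕ Fin (c + 1))) ℂ}
    (hG : G ∈ PR m (h + 1) B Bool (fun b => if b then c else 2) {(true, false)} (c + 1) mu)
    (h0 : ph m Bool c G = 0) : G = 0 := by
  obtain ⟨_, _, _, g4, _⟩ := mem_PR.1 hG
  exact ph_inj G g4 h0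

end Vale.Agent.P181.O2.H352
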