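import Vale.Agent.P181.O2.H352.Tools
import Vale.Agent.P181.O2.H726.CG
import Vale.Agent.P181.TW.T5.Tools

set_option autoImplicit false

/-!
# P181, O2, A4, bridge: monomials of a linear substitution, the free columns
-/

open MvPolynomial

namespace Vale.Agent.P181.O2.H352

open Vale.Agent.P181.SZR3 (colD colD_X colD_eq exists_coeff_colD sum_single_col)
open Vale.Agent.P181.DG6.H887 (lsub lsub_X eval_lsub lsub_deg)
open Vale.Agent.P181.TW.H312 (opL opL_nil opL_cons opL_perm opL_zero opL_append colD_comm)
open Vale.Agent.P181.TW.T5 (lsub_lsub cen sum_cen sum_cen' sum_cen_mul EE EE_castSucc EE_last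
  sum_EE)
open Vale.Agent.P181.O2.H726 (bq bq_lsub sv BQ CQ LB)

variable {m : ℕ}

/-! ### Monomials -/

/-- `w` is obtained from `w'` by moving the variables along the nonzero entries of `A`. -/
inductive Mv {m : ℕ} {σ τ : Type} (A : σ → τ → ℂ) :
    (Fin m × σ →₀ ℕ) → (Fin m × τ →₀ ℕ) → Prop
  | zero : Mv A 0 0
  | add (w' : Fin m × σ →₀ ℕ) (w : Fin m × τ →₀ ℕ) (i : Fin m) (j : σ) (c : τ) :
      Mv A w' w → A j c ≠ 0 → Mv A (w' + Finsupp.single (i, j) 1) (w + Finsupp.single (i, c) 1)

lemma exists_Mv {σ τ : Type} [Fintype τ] (A : σ → τ → ℂ) (f : MvPolynomial (Fin m × σ) ℂ)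
    (w : Fin m × τ →₀ ℕ) (h : coeff w (lsub m A f) ≠ 0) : ∃ w', coeff w' f ≠ 0 ∧ Mv A w' w := by
  classical
  have key : ∀ (s : Fin m × σ →₀ ℕ) (a : ℂ) (w : Fin m × τ →₀ ℕ),
      coeff w (lsub m A (monomial s a)) ≠ 0 → Mv A s w := by
    intro s a
    have h1 := MvPolynomial.induction_on_monomial
      (motive := fun p : MvPolynomial (Fin m × σ) ℂ => ∀ w, coeff w (lsub m A p) ≠ 0 →
        ∃ w', coeff w' p ≠ 0 ∧ Mv A w' w) (fun a w hw => ?_) (fun p n hp w hw => ?_) s a
    · intro w hw
      obtain ⟨w', hw', h2⟩ := h1 w hw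
      rw [coeff_monomial] at hw'
      split_ifs at hw' with h3
      · rw [h3]
        exact h2
      · exact absurd rfl hw'
    · have h2 : lsub m A (C a) = C a := (lsub m A).commutes _
      rw [h2, coeff_C] at hw
      split_ifs at hw with h3
      · refine ⟨0, ?_, ?_⟩
        · rw [coeff_C, if_pos rfl]
          exact hw
        · rw [← h3]
          exact Mv.zero
      · exact absurd rfl hw
    · rw [map_mul, coeff_mul] at hw
      obtain ⟨⟨x, y⟩, hxy, hne⟩ := Finset.exists_ne_zero_of_sum_ne_zero hw
      have hx : coeff x (lsub m A p) ≠ 0 := left_ne_zero_of_mul hne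
      have hy : coeff y (lsub m A (X n)) ≠ 0 := right_ne_zero_of_mul hne
      rw [lsub_X, coeff_sum] at hy
      obtain ⟨c, _, hc⟩ := Finset.exists_ne_zero_of_sum_ne_zero hy
      rw [coeff_C_mul, coeff_X] at hc
      have hA : A n.2 c ≠ 0 := left_ne_zero_of_mul hc
      have hs : Finsupp.single (n.1, c) 1 = y := by
        by_contra hcon
        rw [if_neg hcon, mul_zero] at hc
        exact hc rfl
      obtain ⟨w'', hw'', h2⟩ := hp x hx
      refine ⟨w'' + Finsupp.single n 1, ?_, ?_⟩
      · rw [coeff_mul_X]
        exact hw''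
      · have h3 : x + y = w := Finset.HasAntidiagonal.mem_antidiagonal.1 hxy
        rw [← h3, ← hs]
        exact Mv.add w'' x n.1 n.2 c h2 hA
  rw [f.as_sum, map_sum, coeff_sum] at h
  obtain ⟨s, hs, hne⟩ := Finset.exists_ne_zero_of_sum_ne_zero h
  exact ⟨s, mem_support_iff.1 hs, key s _ w hne⟩

/-! ### The free columns -/

variable {α : Type} [Fintype α] [DecidableEq α]

/-- The marked columns stay, `q_j ↦ ∑ c, A j c q_c`. -/
def exS {α : Type} [DecidableEq α] {s t : ℕ} (A : Fin s → Fin t → ℂ) :
    α ⊕ Fin s → α ⊕ Fin t → ℂ :=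
  Sum.elim (fun a => Sum.elim (fun b => if a = b then 1 else 0) fun _ => 0)
    fun j => Sum.elim (fun _ => 0) (A j)

omit [Fintype α] in
lemma Mv_inl {M : ℕ} {w' : Fin m × (α ⊕ Fin (M + 1)) →₀ ℕ} {w : Fin m × (α ⊕ Fin M) →₀ ℕ}
    (h : Mv (exS (EE M)) w' w) (a : α) : ∑ i, w (i, Sum.inl a) = ∑ i, w' (i, Sum.inl a) := by
  induction h with
  | zero => simp
  | add w' w i j c _ hA ih =>
    simp only [Finsupp.add_apply, Finset.sum_add_distrib, sum_single_col, ih]
    congr 1
    cases j with
    | inl j =>
      cases c with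
      | inl c =>
        have h1 : j = c := by
          by_contra h2
          exact hA (by simp [exS, h2])
        simp [h1]
      | inr c => exact absurd (by simp [exS]) hA
    | inr j =>
      cases c with
      | inl c => exact absurd (by simp [exS]) hA
      | inr c => simp

omit [Fintype α] in
lemma exS_inr {M : ℕ} {j : Fin (M + 1)} {c : Fin M}
    (hA : exS (α := α) (EE M) (Sum.inr j) (Sum.inr c) ≠ 0) :
    j = Fin.last M ∨ j = c.castSucc := by
  induction j using Fin.lastCases with
  | last => exact Or.inl rfl
  | cast j =>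
    right
    by_contra h
    apply hA
    change EE M j.castSucc c = 0
    rw [EE_castSucc]
    exact if_neg fun h' => h (by rw [h'])

omit [Fintype α] in
lemma Mv_deg {M : ℕ} {w' : Fin m × (α ⊕ Fin (M + 1)) →₀ ℕ} {w : Fin m × (α ⊕ Fin M) →₀ ℕ}
    (h : Mv (exS (EE M)) w' w) (b : Fin M) : ∑ i, w (i, Sum.inr b) ≤
      ∑ i, w' (i, Sum.inr b.castSucc) + ∑ i, w' (i, Sum.inr (Fin.last M)) := by
  induction h with
  | zero => simp
  | add w' w i j c _ hA ih =>
    simp only [Finsupp.add_apply, Finset.sum_add_distrib, sum_single_col]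
    have h1 : (if c = Sum.inr b then 1 else 0) ≤
        (if j = Sum.inr b.castSucc then 1 else 0) +
          if j = (Sum.inr (Fin.last M) : α ⊕ Fin (M + 1)) then 1 else 0 := by
      by_cases hc : c = Sum.inr b
      · subst hc
        cases j with
        | inl j => exact absurd (by simp [exS]) hA
        | inr j =>
          rcases exS_inr hA with h2 | h2
          · subst h2
            simp
          · subst h2
            simp
      · simp [hc]
    omega

omit [Fintype α] in
lemma Mv_occ {M : ℕ} {w' : Fin m × (α ⊕ Fin (M + 1)) →₀ ℕ} {w : Fin m × (α ⊕ Fin M) →₀ ℕ}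
    (h : Mv (exS (EE M)) w' w) : ∃ T : Finset (Fin M),
      T.card ≤ ∑ i, w' (i, Sum.inr (Fin.last M)) ∧
      ∀ b : Fin M, (∃ i, w (i, Sum.inr b) ≠ 0) → b ∈ T ∨ ∃ i, w' (i, Sum.inr b.castSucc) ≠ 0 := by
  classical
  induction h with
  | zero => exact ⟨∅, by simp, fun b ⟨i, hi⟩ => absurd (by simp) hi⟩
  | add w' w i j c _ hA ih =>
    obtain ⟨T, hT, hT2⟩ := ih
    cases j with
    | inl j =>
      cases c with
      | inr c => exact absurd (by simp [exS]) hA
      | inl c =>
        refine ⟨T, ?_, fun b ⟨k, hk⟩ => ?_⟩
        · simp only [Finsupp.add_apply, Finset.sum_add_distrib, sum_single_col]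
          omega
        · rw [Finsupp.add_apply, Finsupp.single_apply, if_neg (by simp), add_zero] at hk
          rcases hT2 b ⟨k, hk⟩ with h1 | ⟨l, hl⟩
          · exact Or.inl h1
          · right
            refine ⟨l, ?_⟩
            rw [Finsupp.add_apply]
            omega
    | inr j =>
      cases c with
      | inl c => exact absurd (by simp [exS]) hA
      | inr c =>
        rcases exS_inr hA with h2 | h2
        · subst h2
          refine ⟨insert c T, ?_, fun b ⟨k, hk⟩ => ?_⟩
          · simp only [Finsupp.add_apply, Finset.sum_add_distrib, sum_single_col, if_true]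
            have := Finset.card_insert_le c T
            omega
          · by_cases hb : b = c
            · left
              rw [hb]
              exact Finset.mem_insert_self _ _
            · rw [Finsupp.add_apply, Finsupp.single_apply, if_neg (by simp [Ne.symm hb]),
                add_zero] at hk
              rcases hT2 b ⟨k, hk⟩ with h1 | ⟨l, hl⟩
              · exact Or.inl (Finset.mem_insert_of_mem h1)
              · right
                refine ⟨l, ?_⟩
                rw [Finsupp.add_apply]
                omega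
        · subst h2
          refine ⟨T, ?_, fun b ⟨k, hk⟩ => ?_⟩
          · simp only [Finsupp.add_apply, Finset.sum_add_distrib, sum_single_col]
            omega
          · by_cases hb : b = c
            · right
              refine ⟨i, ?_⟩
              rw [hb, Finsupp.add_apply, Finsupp.single_eq_same]
              omega
            · rw [Finsupp.add_apply, Finsupp.single_apply, if_neg (by simp [Ne.symm hb]),
                add_zero] at hk
              rcases hT2 b ⟨k, hk⟩ with h1 | ⟨l, hl⟩
              · exact Or.inl h1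
              · right
                refine ⟨l, ?_⟩
                rw [Finsupp.add_apply]
                omega

end Vale.Agent.P181.O2.H352
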